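import Vale.Agent.P363.Ext.Geometry
import Vale.Agent.P363.KS.AxialAvg

/-!
P363, exterior argument: the image of the volume under `x ↦ (‖x‖, z / ‖x‖)` is `2π r² dr dθ`, and
integrals of rotation invariant functions reduce to the meridian.
-/

noncomputable section

namespace Vale.Agent.P363.Ext

open MeasureTheory Filter Set
open scoped BigOperators Topology ENNReal Real

/-- The meridian coordinates of a point. -/
def polMap (x : Space) : ℝ × ℝ := (‖x‖, height x / ‖x‖)

/-- The domain of the meridian coordinates. -/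
def strip : Set (ℝ × ℝ) := Ioi 0 ×ˢ Ioo (-1) 1

/-- A point from its height and its position in the mirror plane. -/
def cylPt (p : ℝ × ℝ × ℝ) : Space := !₂[p.2.1, p.2.2, p.1]

lemma measurableSet_strip : MeasurableSet strip := measurableSet_Ioi.prod measurableSet_Ioo

lemma measurable_polMap : Measurable polMap := by
  refine measurable_norm.prodMk (Measurable.div ?_ measurable_norm)
  unfold height
  fun_prop

lemma measurable_pt : Measurable fun p : ℝ × ℝ => pt p.1 p.2 := by
  unfold pt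
  fun_prop

lemma measurePreserving_cylPt : MeasurePreserving cylPt := by
  have h1 := (volume_preserving_piFinSuccAbove (fun _ : Fin 3 => ℝ) 2).symm _
  have h2 : MeasurePreserving (Prod.map (id : ℝ → ℝ) (MeasurableEquiv.finTwoArrow (α := ℝ)).symm)
      (volume.prod volume) (volume.prod volume) :=
    (MeasurePreserving.id volume).prod ((volume_preserving_finTwoArrow ℝ).symm _)
  have h := (PiLp.volume_preserving_toLp (Fin 3)).comp (h1.comp h2)
  have e : cylPt = (WithLp.toLp 2) ∘ (⇑(MeasurableEquiv.piFinSuccAbove (fun _ : Fin 3 => ℝ) 2).symm ∘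
      Prod.map id ⇑(MeasurableEquiv.finTwoArrow (α := ℝ)).symm) := by
    funext p
    ext i
    show _ = (Fin.insertNth (α := fun _ => ℝ) 2 p.1 ![p.2.1, p.2.2] : Fin 3 → ℝ) i
    fin_cases i <;> rfl
  rw [e]
  exact h

lemma norm_pt {r θ : ℝ} (hr : 0 ≤ r) (hθ : θ ^ 2 ≤ 1) : ‖pt r θ‖ = r := by
  rw [← sq_eq_sq₀ (norm_nonneg _) hr, EuclideanSpace.norm_sq_eq, Fin.sum_univ_three]
  simp [pt, mul_pow, Real.sq_sqrt (sub_nonneg.2 hθ)]
  ring

lemma polMap_pt {r θ : ℝ} (hr : 0 < r) (hθ : θ ^ 2 ≤ 1) : polMap (pt r θ) = (r, θ) := by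
  rw [polMap, norm_pt hr.le hθ]
  simp [pt, height, hr.ne']

lemma height_sq_le (x : Space) : (height x / ‖x‖) ^ 2 ≤ 1 := by
  rw [sq_le_one_iff_abs_le_one, abs_div, abs_norm]
  exact div_le_one_of_le₀ (abs_height_le x) (norm_nonneg x)

/-- Every point is a rotated point of the meridian. -/
lemma exists_rot_pt (x : Space) : ∃ φ : ℝ, rot φ (pt ‖x‖ (height x / ‖x‖)) = x := by
  rcases eq_or_ne x 0 with rfl | hx
  · exact ⟨0, by ext i; fin_cases i <;> simp [pt, height]⟩
  have hr : 0 < ‖x‖ := norm_pos_iff.2 hx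
  have h0 : ‖x‖ * Real.sqrt (1 - (height x / ‖x‖) ^ 2) = ‖(⟨x 0, x 1⟩ : ℂ)‖ := by
    rw [Complex.norm_def, Complex.normSq_apply]
    conv_lhs => arg 1; rw [← Real.sqrt_sq hr.le]
    rw [← Real.sqrt_mul (sq_nonneg _)]
    congr 1
    field_simp
    linear_combination norm_sq_eq x
  refine ⟨Complex.arg ⟨x 0, x 1⟩, ?_⟩
  ext i
  fin_cases i
  · simp [pt, h0, mul_comm (Real.cos _), Complex.norm_mul_cos_arg]
  · simp [pt, h0, mul_comm (Real.sin _), Complex.norm_mul_sin_arg]
  · simp [pt, height, mul_div_cancel₀ _ hr.ne']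

/-- Invariant functions only depend on the meridian coordinates. -/
lemma comp_polMap {α : Type*} {g : Space → α} (hg : ∀ φ x, g (rot φ x) = g x) (x : Space) :
    g (pt (polMap x).1 (polMap x).2) = g x := by
  obtain ⟨φ, hφ⟩ := exists_rot_pt x
  conv_rhs => rw [← hφ, hg]
  rfl

/-- The map from the meridian to the half plane `(z, ρ)`. -/
def merMap (p : ℝ × ℝ) : ℝ × ℝ := (p.1 * p.2, p.1 * Real.sqrt (1 - p.2 ^ 2))

/-- Its derivative. -/
def merDeriv (p : ℝ × ℝ) : ℝ × ℝ →L[ℝ] ℝ × ℝ :=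
  (Matrix.toLin (.finTwoProd ℝ) (.finTwoProd ℝ)
    !![p.2, p.1; Real.sqrt (1 - p.2 ^ 2), -(p.1 * p.2) / Real.sqrt (1 - p.2 ^ 2)]).toContinuousLinearMap

lemma sqrt_strip_pos {p : ℝ × ℝ} (hp : p ∈ strip) : 0 < Real.sqrt (1 - p.2 ^ 2) := by
  refine Real.sqrt_pos.2 ?_
  nlinarith [hp.2.1, hp.2.2]

lemma hasFDerivAt_merMap {p : ℝ × ℝ} (hp : p ∈ strip) : HasFDerivAt merMap (merDeriv p) p := by
  have hs := sqrt_strip_pos hp
  have h1 : HasDerivAt (fun t : ℝ => Real.sqrt (1 - t ^ 2))
      (-p.2 / Real.sqrt (1 - p.2 ^ 2)) p.2 := by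
    have := (((hasDerivAt_id p.2).pow 2).const_sub 1).sqrt (by
      simp; nlinarith [hp.2.1, hp.2.2])
    refine this.congr_deriv ?_
    simp
    field_simp
  unfold merDeriv
  rw [Matrix.toLin_finTwoProd_toContinuousLinearMap]
  have hf : HasFDerivAt (fun q : ℝ × ℝ => q.1) (ContinuousLinearMap.fst ℝ ℝ ℝ) p := hasFDerivAt_fst
  have hg : HasFDerivAt (fun q : ℝ × ℝ => q.2) (ContinuousLinearMap.snd ℝ ℝ ℝ) p := hasFDerivAt_snd
  convert! (hf.fun_mul hg).prodMk (hf.fun_mul (h1.comp_hasFDerivAt p hg)) using 2 <;>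
    simp [smul_smul, add_comm, -neg_smul, div_eq_mul_inv, mul_assoc]

lemma det_merDeriv {p : ℝ × ℝ} (hp : p ∈ strip) :
    |(merDeriv p).det| * (merMap p).2 = p.1 ^ 2 := by
  have hs := sqrt_strip_pos hp
  have hs2 : Real.sqrt (1 - p.2 ^ 2) ^ 2 = 1 - p.2 ^ 2 :=
    Real.sq_sqrt (by nlinarith [hp.2.1, hp.2.2])
  have h : (merDeriv p).det = -(p.1 / Real.sqrt (1 - p.2 ^ 2)) := by
    unfold merDeriv
    simp only [LinearMap.det_toContinuousLinearMap, LinearMap.det_toLin, Matrix.det_fin_two_of]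
    field_simp
    rw [hs2]; ring
  have hr : 0 < p.1 := hp.1
  rw [h, abs_neg, abs_of_pos (by positivity)]
  simp only [merMap]
  field_simp

lemma injOn_merMap : InjOn merMap strip := by
  intro p hp q hq h
  have key : ∀ p : ℝ × ℝ, p ∈ strip → p.1 = Real.sqrt ((merMap p).1 ^ 2 + (merMap p).2 ^ 2) := by
    intro p hp
    rw [merMap, mul_pow, mul_pow, Real.sq_sqrt (by nlinarith [hp.2.1, hp.2.2]),
      show p.1 ^ 2 * p.2 ^ 2 + p.1 ^ 2 * (1 - p.2 ^ 2) = p.1 ^ 2 by ring,
      Real.sqrt_sq (le_of_lt hp.1)]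
  have h1 : p.1 = q.1 := by rw [key p hp, key q hq, h]
  refine Prod.ext h1 ?_
  have h2 : p.1 * p.2 = q.1 * q.2 := congrArg Prod.fst h
  rw [h1] at h2
  exact mul_left_cancel₀ (ne_of_gt hq.1) h2

lemma image_merMap : merMap '' strip = univ ×ˢ Ioi 0 := by
  ext ⟨z, ρ⟩
  constructor
  · rintro ⟨p, hp, e⟩
    rw [← e]
    exact ⟨trivial, mul_pos (show 0 < p.1 from hp.1) (sqrt_strip_pos hp)⟩
  · rintro ⟨-, hρ : 0 < ρ⟩
    have h2 : z ^ 2 < z ^ 2 + ρ ^ 2 := by nlinarith
    have hr : 0 < Real.sqrt (z ^ 2 + ρ ^ 2) := Real.sqrt_pos.2 (by positivity)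
    have hz : |z| < Real.sqrt (z ^ 2 + ρ ^ 2) := by
      rw [← Real.sqrt_sq_eq_abs]; exact Real.sqrt_lt_sqrt (sq_nonneg z) h2
    refine ⟨(Real.sqrt (z ^ 2 + ρ ^ 2), z / Real.sqrt (z ^ 2 + ρ ^ 2)), ⟨hr, ?_⟩, ?_⟩
    · obtain ⟨a1, a2⟩ := abs_lt.1 hz
      constructor
      · rw [lt_div_iff₀ hr]; linarith
      · rw [div_lt_one hr]; exact a2
    · simp only [merMap, Prod.mk.injEq]
      refine ⟨mul_div_cancel₀ _ hr.ne', ?_⟩
      conv_lhs => arg 1; rw [← Real.sqrt_sq hr.le]
      rw [← Real.sqrt_mul (sq_nonneg _), div_pow, Real.sq_sqrt (by positivity),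
        show (z ^ 2 + ρ ^ 2) * (1 - z ^ 2 / (z ^ 2 + ρ ^ 2)) = ρ ^ 2 by field_simp; ring,
        Real.sqrt_sq hρ.le]

/-- The integral of an invariant nonnegative function. -/
theorem lintegral_polar {g : Space → ℝ≥0∞} (hm : Measurable g) (hg : ∀ φ x, g (rot φ x) = g x) :
    ∫⁻ x, g x = ∫⁻ p in strip, ENNReal.ofReal (2 * π * p.1 ^ 2) * g (pt p.1 p.2) := by
  set m : ℝ × ℝ → ℝ≥0∞ := fun w => ENNReal.ofReal w.2 * g (cylPt (w.1, w.2, 0)) with hmdef
  have hcyl : Measurable fun w : ℝ × ℝ × ℝ => g (cylPt w) :=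
    hm.comp measurePreserving_cylPt.measurable
  have hpl : ∀ z : ℝ, ∫⁻ q : ℝ × ℝ, g (cylPt (z, q)) =
      ENNReal.ofReal (2 * π) * ∫⁻ ρ in Ioi (0 : ℝ), m (z, ρ) := by
    intro z
    have hmz : Measurable fun ρ : ℝ => m (z, ρ) := by
      simp only [hmdef]
      exact ENNReal.measurable_ofReal.mul
        (hcyl.comp (measurable_const.prodMk (measurable_id.prodMk measurable_const)))
    rw [← lintegral_comp_polarCoord_symm]
    have e : ∀ p : ℝ × ℝ, ENNReal.ofReal p.1 • g (cylPt (z, polarCoord.symm p)) =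
        m (z, p.1) * 1 := fun p => by
      rw [smul_eq_mul, mul_one, hmdef]
      congr 1
      rw [← hg p.2 (cylPt (z, p.1, 0))]
      congr 1
      ext i
      fin_cases i <;> simp [cylPt, polarCoord, mul_comm]
    simp only [e]
    rw [show polarCoord.target = Ioi (0 : ℝ) ×ˢ Ioo (-π) π from rfl]
    rw [Measure.volume_eq_prod, ← Measure.prod_restrict]
    rw [lintegral_prod_mul hmz.aemeasurable aemeasurable_const]
    rw [setLIntegral_one, Real.volume_Ioo, mul_comm]
    congr 2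
    ring
  have hmm : Measurable m := (ENNReal.measurable_ofReal.comp measurable_snd).mul
    (hcyl.comp (measurable_fst.prodMk (measurable_snd.prodMk measurable_const)))
  rw [← measurePreserving_cylPt.lintegral_comp hm, Measure.volume_eq_prod,
    lintegral_prod _ hcyl.aemeasurable]
  simp only [hpl]
  rw [lintegral_const_mul' _ _ ENNReal.ofReal_ne_top]
  have e2 : ∫⁻ z : ℝ, ∫⁻ ρ in Ioi (0 : ℝ), m (z, ρ) = ∫⁻ w in univ ×ˢ Ioi 0, m w := by
    rw [Measure.volume_eq_prod, setLIntegral_prod _ hmm.aemeasurable, Measure.restrict_univ]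
  rw [e2, ← image_merMap, lintegral_image_eq_lintegral_abs_det_fderiv_mul volume measurableSet_strip
    (fun p hp => (hasFDerivAt_merMap hp).hasFDerivWithinAt) injOn_merMap,
    ← lintegral_const_mul' _ _ ENNReal.ofReal_ne_top]
  refine setLIntegral_congr_fun measurableSet_strip fun p hp => ?_
  have e3 : cylPt ((merMap p).1, (merMap p).2, 0) = pt p.1 p.2 := by
    ext i; fin_cases i <;> simp [cylPt, merMap, pt]
  simp only [hmdef, e3, ← mul_assoc]
  congr 1
  rw [mul_assoc, ← ENNReal.ofReal_mul (abs_nonneg _), det_merDeriv hp,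
    ← ENNReal.ofReal_mul (by positivity)]

/-- The image of the volume. -/
def polMeas : Measure (ℝ × ℝ) :=
  (volume.restrict strip).withDensity fun p => ENNReal.ofReal (2 * π * p.1 ^ 2)

theorem map_polMap : Measure.map polMap volume = polMeas := by
  ext s hs
  have hinv : ∀ φ x, polMap (rot φ x) = polMap x := fun φ x => by
    have hn : ‖rot φ x‖ = ‖x‖ := (axIso false φ).norm_map x
    simp [polMap, hn, height]
  rw [Measure.map_apply measurable_polMap hs, ← lintegral_indicator_one (measurable_polMap hs),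
    lintegral_polar (measurable_one.indicator (measurable_polMap hs)) fun φ x => by
      by_cases h : polMap x ∈ s <;> simp [Set.indicator, hinv, h],
    polMeas, withDensity_apply _ hs, ← lintegral_indicator hs]
  refine setLIntegral_congr_fun measurableSet_strip fun p hp => ?_
  have : polMap (pt p.1 p.2) = p := by
    rw [polMap_pt hp.1 (by nlinarith [hp.2.1, hp.2.2])]
  by_cases h : p ∈ s <;> simp [this, h]

/-- Integrals and integrability of functions of the meridian coordinates. -/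
theorem integral_polMap {q : ℝ × ℝ → ℝ} (hq : Measurable q) :
    (Integrable (fun x : Space => q (polMap x)) ↔
      IntegrableOn (fun p => p.1 ^ 2 * q p) strip) ∧
      ∫ x : Space, q (polMap x) = 2 * π * ∫ p in strip, p.1 ^ 2 * q p := by
  have hd : Measurable fun p : ℝ × ℝ => (2 * π * p.1 ^ 2).toNNReal := by fun_prop
  have hpm : polMeas = (volume.restrict strip).withDensity
      fun p => ((2 * π * p.1 ^ 2).toNNReal : ℝ≥0∞) := rfl
  have he : ∀ p : ℝ × ℝ, ((2 * π * p.1 ^ 2).toNNReal : ℝ) = 2 * π * p.1 ^ 2 := fun p =>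
    Real.coe_toNNReal _ (by positivity)
  constructor
  · rw [← Function.comp_def q polMap, ← integrable_map_measure hq.aestronglyMeasurable
      measurable_polMap.aemeasurable, map_polMap, hpm, integrable_withDensity_iff_integrable_smul hd]
    simp only [NNReal.smul_def, he, smul_eq_mul]
    refine ⟨fun h => (h.const_mul (2 * π)⁻¹).congr ?_, fun h => (h.const_mul (2 * π)).congr ?_⟩ <;>
      refine ae_of_all _ fun p => ?_
    · have := Real.pi_pos
      field_simp
    · ring
  · rw [← integral_map measurable_polMap.aemeasurable hq.aestronglyMeasurable, map_polMap, hpm,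
      integral_withDensity_eq_integral_smul hd, ← integral_const_mul]
    simp only [NNReal.smul_def, smul_eq_mul, he]
    exact integral_congr_ae (ae_of_all _ fun p => by ring)

end Vale.Agent.P363.Ext
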