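import Vale.Agent.P363.Ext.Polar

/-!
P363, exterior argument: the identity on the upper half of the meridian, with both boundary terms
on the plane (`HalfIdentityStmt`).
-/

noncomputable section

namespace Vale.Agent.P363.Ext

open MeasureTheory Filter Set Metric
open scoped BigOperators Topology

/-- The smooth step. -/
def step (t : ℝ) : ℝ := Real.smoothTransition t

/-- The scaled step. -/
def stepAt (ε t : ℝ) : ℝ := step (t / ε)

lemma contDiff_stepAt (ε : ℝ) {n : ℕ∞} : ContDiff ℝ n (stepAt ε) :=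
  Real.smoothTransition.contDiff.comp (contDiff_id.div_const ε)

lemma deriv_stepAt (ε t : ℝ) : deriv (stepAt ε) t = deriv step (t / ε) / ε := by
  have h : HasDerivAt step (deriv step (t / ε)) (t / ε) :=
    ((Real.smoothTransition.contDiff (n := 1)).differentiable one_ne_zero _).hasDerivAt
  have h2 := h.comp t ((hasDerivAt_id t).div_const ε)
  rw [show stepAt ε = step ∘ fun x => id x / ε from rfl, h2.deriv]
  ring

lemma deriv_step_off {t : ℝ} (ht : t ∉ Icc (0 : ℝ) 1) : deriv step t = 0 := by
  rw [mem_Icc, not_and_or, not_le, not_le] at ht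
  rcases ht with h | h
  · rw [Filter.EventuallyEq.deriv_eq (f₁ := step) (f := fun _ : ℝ => (0 : ℝ))
      (eventually_of_mem (Iio_mem_nhds h) fun s hs =>
        Real.smoothTransition.zero_of_nonpos (le_of_lt hs))]
    simp
  · rw [Filter.EventuallyEq.deriv_eq (f₁ := step) (f := fun _ : ℝ => (1 : ℝ))
      (eventually_of_mem (Ioi_mem_nhds h) fun s hs =>
        Real.smoothTransition.one_of_one_le (le_of_lt hs))]
    simp

lemma continuous_deriv_step : Continuous (deriv step) :=
  (Real.smoothTransition.contDiff (n := 1)).continuous_deriv le_rfl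

lemma integral_deriv_step : ∫ t, deriv step t = 1 := by
  have h : ∀ t, HasDerivAt step (deriv step t) t := fun t =>
    ((Real.smoothTransition.contDiff (n := 1)).differentiable one_ne_zero t).hasDerivAt
  have := integral_of_hasDerivAt_of_tendsto h
    (continuous_deriv_step.integrable_of_hasCompactSupport
      (HasCompactSupport.intro isCompact_Icc fun _ ht => deriv_step_off ht))
    (m := 0) (n := 1) ?_ ?_
  · simpa using this
  · exact tendsto_const_nhds.congr' (eventually_of_mem (Iic_mem_atBot 0) fun s hs =>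
      (Real.smoothTransition.zero_of_nonpos hs).symm)
  · exact tendsto_const_nhds.congr' (eventually_of_mem (Ici_mem_atTop 1) fun s hs =>
      (Real.smoothTransition.one_of_one_le hs).symm)

lemma integral_deriv_zero {F : ℝ → ℝ → ℝ} (h : ContDiff ℝ 1 (Function.uncurry F))
    (hc : HasCompactSupport (Function.uncurry F)) : ∫ p : ℝ × ℝ, dAng F p.1 p.2 = 0 := by
  have hd := h.differentiable one_ne_zero
  have hi : Integrable (fun p : ℝ × ℝ => dAng F p.1 p.2) :=
    integrable_of_supp hc (contDiff_dAng (n := 0) h).continuous fun p hp =>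
      eq_zero_off (tsupport_dAng hd) hp
  rw [Measure.volume_eq_prod, integral_prod _ hi]
  refine integral_eq_zero_of_ae (ae_of_all _ fun r => ?_)
  set K := tsupport (Function.uncurry F)
  show ∫ t, deriv (F r) t = 0
  have h2 : ContDiff ℝ 1 (F r) := h.comp (contDiff_const.prodMk contDiff_id)
  have h3 : HasCompactSupport (F r) := HasCompactSupport.intro (hc.image continuous_snd) fun t ht =>
    eq_zero_off subset_rfl (p := (r, t)) fun hm => ht ⟨_, hm, rfl⟩
  have := integral_of_hasDerivAt_of_tendsto (f := F r) (f' := deriv (F r)) (m := 0) (n := 0)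
    (fun t => (h2.differentiable one_ne_zero t).hasDerivAt)
    ((h2.continuous_deriv le_rfl).integrable_of_hasCompactSupport h3.deriv)
    ((hasCompactSupport_iff_eventuallyEq.1 h3).filter_mono (atBot_le_cocompact.trans_eq coclosedCompact_eq_cocompact.symm) |> tendsto_nhds_of_eventually_eq)
    ((hasCompactSupport_iff_eventuallyEq.1 h3).filter_mono (atTop_le_cocompact.trans_eq coclosedCompact_eq_cocompact.symm) |> tendsto_nhds_of_eventually_eq)
  simpa using this

/-- The flux through the plane, before the limit. -/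
def flux (u ζ : ℝ → ℝ → ℝ) (p : ℝ × ℝ) : ℝ :=
  (1 - p.2 ^ 2) * (u p.1 p.2 * dAng ζ p.1 p.2 - dAng u p.1 p.2 * ζ p.1 p.2) / p.1 ^ 2

lemma polarOp_cut {a k : ℝ} {ζ : ℝ → ℝ → ℝ} (hζ : ContDiff ℝ 2 (Function.uncurry ζ))
    {χ : ℝ → ℝ} (hχ : ContDiff ℝ 2 χ) (r θ : ℝ) :
    polarOp a k (fun r θ => ζ r θ * χ θ) r θ = χ θ * polarOp a k ζ r θ +
      ((((1 - θ ^ 2) * deriv (deriv χ) θ - 2 * θ * deriv χ θ) * ζ r θ) +
        2 * (1 - θ ^ 2) * dAng ζ r θ * deriv χ θ) / r ^ 2 := by
  have hζ1 := hζ.differentiable two_ne_zero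
  have hA := ((contDiff_dAng (n := 1) hζ).differentiable one_ne_zero)
  have hd := hχ.differentiable two_ne_zero
  have hd1 : Differentiable ℝ (deriv χ) := (hχ.deriv' (n := 1)).differentiable one_ne_zero
  have hZ : ContDiff ℝ 2 (Function.uncurry fun r θ => ζ r θ * χ θ) :=
    hζ.mul (hχ.comp contDiff_snd)
  have e1 : ∀ t, dAng (fun r θ => ζ r θ * χ θ) r t = dAng ζ r t * χ t + ζ r t * deriv χ t :=
    fun t => ((partials hζ1 r t).2.1.fun_mul (hd t).hasDerivAt).deriv
  have e2 : dAng (dAng fun r θ => ζ r θ * χ θ) r θ =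
      dAng (dAng ζ) r θ * χ θ + dAng ζ r θ * deriv χ θ +
        (dAng ζ r θ * deriv χ θ + ζ r θ * deriv (deriv χ) θ) := by
    rw [show dAng (dAng fun r θ => ζ r θ * χ θ) r θ =
      deriv (fun t => dAng (fun r θ => ζ r θ * χ θ) r t) θ from rfl, funext e1]
    exact (((partials hA r θ).2.1.fun_mul (hd θ).hasDerivAt).fun_add
      ((partials hζ1 r θ).2.1.fun_mul (hd1 θ).hasDerivAt)).deriv
  simp only [polarOp, deriv_mul_const_field, angLap_eq hZ, angLap_eq hζ, e1, e2]
  ring

/-- The same identity on the upper half, with both boundary terms on the plane. -/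
theorem halfIdentityStmt : HalfIdentityStmt := by
  intro a k R ha hR f h hf hfr hhr hhm hw ζ hζ hc hs
  have hR0 : 0 ≤ R := zero_le_one.trans hR
  set K := tsupport (Function.uncurry ζ) with hK
  have hKc : IsCompact K := hc
  set u := red a k f with hu
  set rhs : ℝ × ℝ → ℝ := fun p =>
    red a k h p.1 p.2 - 2 * (farPot a k p.1 + shift a k p.1) * u p.1 p.2 with hrhs
  obtain ⟨iA, iB, -⟩ := polar_identity (k := k) ha.ne' hR hf.continuousOn hfr hhr hhm hw hζ hc hs
  have hu1 : ∀ p ∈ sector R, ContDiffAt ℝ 1 (fun q : ℝ × ℝ => u q.1 q.2) p := by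
    intro p hp
    have hr : 0 < p.1 := hR0.trans_lt hp.1
    have hsq : 1 - p.2 ^ 2 ≠ 0 := by
      have := hp.2; nlinarith [abs_nonneg p.2, sq_abs p.2]
    have hpt : ContDiffAt ℝ 1 (fun q : ℝ × ℝ => pt q.1 q.2) p := by
      rw [contDiffAt_euclidean]
      intro i
      fin_cases i
      · simpa [pt] using contDiffAt_fst.mul ((contDiffAt_const.sub (contDiffAt_snd.pow 2)).sqrt hsq)
      · simpa [pt] using contDiffAt_const
      · simpa [pt] using contDiffAt_fst.mul contDiffAt_snd
    have h1 := ((hf.contDiffAt ((isOpen_belt R).mem_nhds (pt_mem_belt hR0 hp))).comp p hpt).mul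
      ((contDiffAt_fst.pow 2).mul ((contDiffAt_polWeight a k hr).comp p contDiffAt_fst))
    refine h1.congr_of_eventuallyEq (eventually_of_mem ((isOpen_sector R).mem_nhds hp) fun q hq => ?_)
    simp [hu, red, div_eq_mul_inv, sq_mul_polWeight a k (hR0.trans_lt hq.1)]
  set W : ℝ → ℝ → ℝ := fun r θ => u r θ * ζ r θ / r ^ 2 with hW
  have hW1 : ContDiff ℝ 1 (Function.uncurry W) := by
    refine contDiff_iff_contDiffAt.2 fun p => ?_
    by_cases hp : p ∈ K
    · exact ((hu1 p (hs hp)).mul (hζ.of_le one_le_two).contDiffAt).div (contDiffAt_fst.pow 2)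
        (pow_ne_zero 2 (hR0.trans_lt (hs hp).1).ne')
    · refine (contDiffAt_const (c := (0 : ℝ))).congr_of_eventuallyEq ?_
      filter_upwards [notMem_tsupport_iff_eventuallyEq.1 hp] with q hq
      simp only [Pi.zero_apply] at hq
      simp only [Function.uncurry, hW] at hq ⊢
      simp [hq]
  have hWs : tsupport (Function.uncurry W) ⊆ K := closure_minimal (fun p hp => by_contra fun hn =>
    hp (by simp [hW, Function.uncurry, eq_zero_off subset_rfl hn])) (isClosed_tsupport _)
  have hdW : ∀ p ∈ sector R, dAng W p.1 p.2 =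
      (dAng u p.1 p.2 * ζ p.1 p.2 + u p.1 p.2 * dAng ζ p.1 p.2) / p.1 ^ 2 := by
    intro p hp
    have h1 : HasDerivAt (u p.1) (dAng u p.1 p.2) p.2 := DifferentiableAt.hasDerivAt
      (((hu1 p hp).differentiableAt one_ne_zero).comp (f := fun t : ℝ => (p.1, t)) p.2
        (by fun_prop))
    exact ((h1.fun_mul (partials (hζ.differentiable two_ne_zero) p.1 p.2).2.1).div_const _).deriv
  have hoff : ∀ p ∉ K, ζ p.1 p.2 = 0 ∧ dAng ζ p.1 p.2 = 0 ∧ polarOp a k ζ p.1 p.2 = 0 :=
    fun p hp => by
      obtain ⟨z1, z2, z3, -⟩ := polarOp_off (a := a) (k := k) hζ subset_rfl hp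
      exact ⟨z2, z3, z1⟩
  have zD : ∀ p ∉ K, flux u ζ p = 0 := fun p hp => by simp [flux, (hoff p hp).1, (hoff p hp).2.1]
  have cD : Continuous (flux u ζ) := continuous_of_supp (isOpen_sector R) hKc.isClosed hs ?_ zD
  swap
  · intro p hp
    refine ContinuousAt.continuousWithinAt ?_
    have hcu : ContinuousAt (fun q : ℝ × ℝ => dAng u q.1 q.2) p := by
      have h1 := ((hu1 p hp).fderiv_right (m := 0) le_rfl).continuousAt
      have h2 := h1.clm_apply (continuousAt_const (y := ((0 : ℝ), (1 : ℝ))))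
      refine h2.congr (eventually_of_mem ((isOpen_sector R).mem_nhds hp) fun q hq => ?_)
      exact ((((hu1 q hq).differentiableAt one_ne_zero).hasFDerivAt).comp_hasDerivAt
        (f := fun t : ℝ => (q.1, t)) q.2
        ((hasDerivAt_const q.2 q.1).prodMk (hasDerivAt_id q.2))).deriv.symm
    exact ((continuousAt_const.sub (continuousAt_snd.pow 2)).mul
      (((hu1 p hp).continuousAt.mul (contDiff_dAng (n := 1) hζ).continuous.continuousAt).sub
        (hcu.mul hζ.continuous.continuousAt))).div (continuousAt_fst.pow 2)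
      (pow_ne_zero 2 (hR0.trans_lt hp.1).ne')
  have stepEq : ∀ ε : ℝ, 0 < ε → (∫ p : ℝ × ℝ, stepAt ε p.2 * (u p.1 p.2 * polarOp a k ζ p.1 p.2)) +
      ∫ p : ℝ × ℝ, deriv step p.2 * flux u ζ (p.1, ε * p.2) =
      ∫ p : ℝ × ℝ, stepAt ε p.2 * (ζ p.1 p.2 * rhs p) := by
    intro ε hε
    set χ := stepAt ε with hχ'
    have hχ : ContDiff ℝ 2 χ := contDiff_stepAt ε (n := 2)
    have hχ1 : ∀ t, |χ t| ≤ 1 := fun t => by
      simp only [hχ', stepAt, Vale.Agent.P363.Ext.step]
      rw [abs_of_nonneg (Real.smoothTransition.nonneg _)]; exact Real.smoothTransition.le_one _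
    set Z : ℝ → ℝ → ℝ := fun r θ => ζ r θ * χ θ with hZ'
    have hZ : ContDiff ℝ 2 (Function.uncurry Z) := hζ.mul (hχ.comp contDiff_snd)
    have hZs : tsupport (Function.uncurry Z) ⊆ K :=
      tsupport_mul_subset_left (f := Function.uncurry ζ) (g := fun p : ℝ × ℝ => χ p.2)
    obtain ⟨jA, -, e⟩ := polar_identity (k := k) ha.ne' hR hf.continuousOn hfr hhr hhm hw hZ
      (hKc.of_isClosed_subset (isClosed_tsupport _) hZs) (hZs.trans hs)
    set P : ℝ → ℝ → ℝ := fun r θ => W r θ * ((1 - θ ^ 2) * deriv χ θ) with hP'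
    have hc1 : ContDiff ℝ 1 fun θ : ℝ => (1 - θ ^ 2) * deriv χ θ :=
      (contDiff_const.sub (contDiff_id.pow 2)).mul (hχ.deriv' (n := 1))
    have hP : ContDiff ℝ 1 (Function.uncurry P) := hW1.mul (hc1.comp contDiff_snd)
    have hPs : tsupport (Function.uncurry P) ⊆ K := (tsupport_mul_subset_left
      (f := Function.uncurry W) (g := fun p : ℝ × ℝ => (1 - p.2 ^ 2) * deriv χ p.2)).trans hWs
    have hP0 := integral_deriv_zero hP (hKc.of_isClosed_subset (isClosed_tsupport _) hPs)
    have iP : Integrable fun p : ℝ × ℝ => dAng P p.1 p.2 := integrable_of_supp hKc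
      (contDiff_dAng (n := 0) hP).continuous fun p hp =>
        eq_zero_off ((tsupport_dAng (hP.differentiable one_ne_zero)).trans hPs) hp
    have iF : Integrable fun p : ℝ × ℝ => deriv χ p.2 * flux u ζ p := integrable_of_supp hKc
      (((hχ.deriv' (n := 1)).continuous.comp continuous_snd).mul cD) fun p hp => by
        rw [zD p hp, mul_zero]
    have hpt : ∀ p : ℝ × ℝ, u p.1 p.2 * polarOp a k Z p.1 p.2 =
        χ p.2 * (u p.1 p.2 * polarOp a k ζ p.1 p.2) + deriv χ p.2 * flux u ζ p +
          dAng P p.1 p.2 := by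
      intro p
      rw [hZ', polarOp_cut hζ hχ]
      by_cases hp : p ∈ K
      · have hθ : HasDerivAt (fun t : ℝ => 1 - t ^ 2) (-(2 * p.2)) p.2 := by
          simpa using ((hasDerivAt_id p.2).pow 2).const_sub 1
        rw [show dAng P p.1 p.2 = _ from ((partials (hW1.differentiable one_ne_zero) p.1 p.2).2.1
          |>.fun_mul (hθ.fun_mul
            ((hχ.deriv' (n := 1)).differentiable one_ne_zero p.2).hasDerivAt)).deriv, hdW p (hs hp)]
        simp only [hW, flux]
        ring
      · obtain ⟨z1, z2, z3⟩ := hoff p hp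
        rw [eq_zero_off ((tsupport_dAng (hP.differentiable one_ne_zero)).trans hPs) hp, zD p hp,
          z1, z2, z3]
        simp
    have iC : Integrable fun p : ℝ × ℝ => χ p.2 * (u p.1 p.2 * polarOp a k ζ p.1 p.2) :=
      iA.bdd_mul (hχ.continuous.comp continuous_snd).aestronglyMeasurable
        (ae_of_all _ fun p => hχ1 p.2)
    have hsub : ∫ p : ℝ × ℝ, deriv χ p.2 * flux u ζ p =
        ∫ p : ℝ × ℝ, deriv step p.2 * flux u ζ (p.1, ε * p.2) := by
      have i2 : Integrable fun p : ℝ × ℝ => deriv step p.2 * flux u ζ (p.1, ε * p.2) := by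
        refine integrable_of_supp ((hKc.image continuous_fst).prod (isCompact_Icc (a := (0:ℝ)) (b := 1)))
          ((continuous_deriv_step.comp continuous_snd).mul (cD.comp (by fun_prop))) fun p hp => ?_
        by_cases h2 : p.2 ∈ Icc (0 : ℝ) 1
        · rw [zD (p.1, ε * p.2) fun hm => hp ⟨⟨_, hm, rfl⟩, h2⟩, mul_zero]
        · rw [deriv_step_off h2, zero_mul]
      rw [Measure.volume_eq_prod, integral_prod _ iF, integral_prod _ i2]
      refine integral_congr_ae (ae_of_all _ fun r => ?_)
      have hcm := Measure.integral_comp_mul_left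
        (fun t => deriv χ t * flux u ζ (r, t)) ε
      simp only [hχ', deriv_stepAt, mul_div_cancel_left₀ _ hε.ne', smul_eq_mul,
        abs_of_pos (inv_pos.2 hε)] at hcm ⊢
      rw [show (fun t => deriv step t / ε * flux u ζ (r, ε * t)) =
        fun t => ε⁻¹ * (deriv step t * flux u ζ (r, ε * t)) from funext fun t => by ring,
        integral_const_mul] at hcm
      exact (mul_left_cancel₀ (inv_ne_zero hε.ne') hcm).symm
    calc _ = (∫ p : ℝ × ℝ, χ p.2 * (u p.1 p.2 * polarOp a k ζ p.1 p.2)) +
          ∫ p : ℝ × ℝ, deriv χ p.2 * flux u ζ p := by rw [hsub]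
      _ = ∫ p : ℝ × ℝ, u p.1 p.2 * polarOp a k Z p.1 p.2 := by
          simp only [hpt]
          rw [integral_add (f := fun p : ℝ × ℝ => χ p.2 * (u p.1 p.2 * polarOp a k ζ p.1 p.2) +
            deriv χ p.2 * flux u ζ p) (iC.add iF) iP, integral_add iC iF, hP0, add_zero]
      _ = _ := by
          rw [e]
          exact integral_congr_ae (ae_of_all _ fun p => by simp only [hZ', hrhs]; ring)
  set ε : ℕ → ℝ := fun n => 1 / ((n : ℝ) + 1) with hε'
  have hεp : ∀ n, 0 < ε n := fun n => by positivity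
  have hε0 : Tendsto ε atTop (𝓝 0) := tendsto_one_div_add_atTop_nhds_zero_nat
  have hlim : ∀ G : ℝ × ℝ → ℝ, Integrable G → Tendsto (fun n => ∫ p, stepAt (ε n) p.2 * G p)
      atTop (𝓝 (∫ p in {p : ℝ × ℝ | 0 < p.2}, G p)) := by
    intro G hG
    have hm : MeasurableSet {p : ℝ × ℝ | 0 < p.2} := measurableSet_lt measurable_const measurable_snd
    rw [← integral_indicator hm]
    refine tendsto_integral_of_dominated_convergence (fun p => |G p|) (fun n =>
      ((contDiff_stepAt (ε n) (n := 0)).continuous.comp continuous_snd).aestronglyMeasurable.mul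
        hG.1) hG.abs (fun n => ae_of_all _ fun p => ?_) (ae_of_all _ fun p => ?_)
    · rw [Real.norm_eq_abs, abs_mul]
      refine mul_le_of_le_one_left (abs_nonneg _) ?_
      simp only [stepAt, Vale.Agent.P363.Ext.step]
      rw [abs_of_nonneg (Real.smoothTransition.nonneg _)]
      exact Real.smoothTransition.le_one _
    · rcases lt_or_ge 0 p.2 with hp | hp
      · rw [indicator_of_mem (show p ∈ {p : ℝ × ℝ | 0 < p.2} from hp)]
        refine tendsto_const_nhds.congr' ?_
        filter_upwards [hε0.eventually (Iio_mem_nhds hp)] with n hn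
        rw [stepAt, Vale.Agent.P363.Ext.step, Real.smoothTransition.one_of_one_le
          ((one_le_div (hεp n)).2 (le_of_lt hn)), one_mul]
      · rw [indicator_of_notMem (show p ∉ {p : ℝ × ℝ | 0 < p.2} from not_lt.2 hp)]
        refine tendsto_const_nhds.congr' (Eventually.of_forall fun n => ?_)
        simp only [stepAt, Vale.Agent.P363.Ext.step]
        rw [Real.smoothTransition.zero_of_nonpos
          (div_nonpos_of_nonpos_of_nonneg hp (hεp n).le), zero_mul]
  have hflux : Tendsto (fun n => ∫ p : ℝ × ℝ, deriv Vale.Agent.P363.Ext.step p.2 *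
      flux u ζ (p.1, ε n * p.2)) atTop (𝓝 (∫ r : ℝ, flux u ζ (r, 0))) := by
    have e0 : ∫ r : ℝ, flux u ζ (r, 0) =
        ∫ p : ℝ × ℝ, deriv Vale.Agent.P363.Ext.step p.2 * flux u ζ (p.1, 0) := by
      simp only [mul_comm (deriv _ _)]
      rw [Measure.volume_eq_prod, integral_prod_mul (fun r => flux u ζ (r, 0)) (deriv Vale.Agent.P363.Ext.step),
        integral_deriv_step, mul_one]
    rw [e0]
    obtain ⟨M, hM⟩ := (hKc.bddAbove_image cD.abs.continuousOn)
    have hMall : ∀ q, |flux u ζ q| ≤ max M 0 := fun q => by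
      by_cases hq : q ∈ K
      · exact (hM ⟨q, hq, rfl⟩).trans (le_max_left _ _)
      · rw [zD q hq, abs_zero]; exact le_max_right _ _
    set S := (Prod.fst '' K) ×ˢ Icc (0 : ℝ) 1 with hS
    have hSc : IsCompact S := (hKc.image continuous_fst).prod isCompact_Icc
    have hbd : Integrable (S.indicator fun p : ℝ × ℝ =>
        |deriv Vale.Agent.P363.Ext.step p.2| * max M 0) :=
      (((continuous_deriv_step.comp continuous_snd).abs.mul continuous_const).continuousOn
        |>.integrableOn_compact hSc).integrable_indicator hSc.measurableSet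
    refine tendsto_integral_of_dominated_convergence _ (fun n =>
      (((continuous_deriv_step.comp continuous_snd).mul (cD.comp (by fun_prop)))).aestronglyMeasurable)
      hbd (fun n => ae_of_all _ fun p => ?_) (ae_of_all _ fun p => ?_)
    · by_cases hp : p ∈ S
      · rw [indicator_of_mem hp, Real.norm_eq_abs, abs_mul]
        exact mul_le_mul_of_nonneg_left (hMall _) (abs_nonneg _)
      · rw [indicator_of_notMem hp]
        by_cases h2 : p.2 ∈ Icc (0 : ℝ) 1
        · rw [zD (p.1, ε n * p.2) fun hm => hp ⟨⟨_, hm, rfl⟩, h2⟩]; simp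
        · rw [deriv_step_off h2]; simp
    · refine Tendsto.const_mul _ ?_
      have := (cD.tendsto (p.1, 0 * p.2)).comp
        ((tendsto_const_nhds (x := p.1)).prodMk_nhds (hε0.mul_const p.2))
      simpa [Function.comp_def] using this
  have hboth := (hlim _ iA).add hflux
  have hrl : Tendsto (fun n => ∫ p : ℝ × ℝ, stepAt (ε n) p.2 * (ζ p.1 p.2 * rhs p)) atTop
      (𝓝 (∫ p in {p : ℝ × ℝ | 0 < p.2}, ζ p.1 p.2 * rhs p)) := hlim _ iB
  have he := tendsto_nhds_unique
    (hboth.congr fun n => stepEq (ε n) (hεp n)) hrl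
  have hbd : ∫ r : ℝ, (deriv (red a k f r) 0 * ζ r 0 - red a k f r 0 * deriv (ζ r) 0) / r ^ 2 =
      -∫ r : ℝ, flux u ζ (r, 0) := by
    rw [← integral_neg]
    refine integral_congr_ae (ae_of_all _ fun r => ?_)
    simp only [flux, dAng, hu]
    ring
  simp only [hrhs, hu] at he
  linarith [he, hbd]

end Vale.Agent.P363.Ext
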