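import Vale.Agent.P363.Ext.Polar.Meas
import Vale.Agent.P363.Tool.Ratio

/-!
P363, exterior argument: the Laplacian in the coordinates `r = ‖x‖`, `θ = z / r`, and weak
equations tested against `C²` functions.
-/

noncomputable section

namespace Vale.Agent.P363.Ext

open MeasureTheory Filter Set Metric
open scoped BigOperators Topology

/-- The radial derivative. -/
def dRad (F : ℝ → ℝ → ℝ) (r θ : ℝ) : ℝ := deriv (fun t => F t θ) r

/-- The angular derivative. -/
def dAng (F : ℝ → ℝ → ℝ) (r θ : ℝ) : ℝ := deriv (F r) θ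

/-- The Laplacian of an axially symmetric function in the meridian coordinates. -/
def polLap (F : ℝ → ℝ → ℝ) (r θ : ℝ) : ℝ :=
  dRad (dRad F) r θ + 2 / r * dRad F r θ + angLap F r θ / r ^ 2

lemma partials {F : ℝ → ℝ → ℝ} (h : Differentiable ℝ (Function.uncurry F)) (r θ : ℝ) :
    HasDerivAt (fun t => F t θ) (dRad F r θ) r ∧ HasDerivAt (F r) (dAng F r θ) θ ∧
      fderiv ℝ (Function.uncurry F) (r, θ) (1, 0) = dRad F r θ ∧
      fderiv ℝ (Function.uncurry F) (r, θ) (0, 1) = dAng F r θ := by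
  have hd := (h (r, θ)).hasFDerivAt
  have h1 : HasDerivAt (fun t => F t θ) (fderiv ℝ (Function.uncurry F) (r, θ) (1, 0)) r :=
    HasFDerivAt.comp_hasDerivAt (l := Function.uncurry F) (f := fun t : ℝ => (t, θ)) r hd
      ((hasDerivAt_id r).prodMk (hasDerivAt_const r θ))
  have h2 : HasDerivAt (F r) (fderiv ℝ (Function.uncurry F) (r, θ) (0, 1)) θ :=
    HasFDerivAt.comp_hasDerivAt (l := Function.uncurry F) (f := fun t : ℝ => (r, t)) θ hd
      ((hasDerivAt_const θ r).prodMk (hasDerivAt_id θ))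
  exact ⟨by rw [dRad, h1.deriv]; exact h1, by rw [dAng, h2.deriv]; exact h2, h1.deriv.symm,
    h2.deriv.symm⟩

lemma contDiff_dRad {F : ℝ → ℝ → ℝ} {n : WithTop ℕ∞} (h : ContDiff ℝ (n + 1) (Function.uncurry F)) :
    ContDiff ℝ n (Function.uncurry (dRad F)) := by
  have e : Function.uncurry (dRad F) = fun p => fderiv ℝ (Function.uncurry F) p (1, 0) :=
    funext fun p => ((partials (h.differentiable (by simp)) p.1 p.2).2.2.1).symm
  rw [e]
  exact (h.fderiv_right le_rfl).clm_apply contDiff_const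

lemma contDiff_dAng {F : ℝ → ℝ → ℝ} {n : WithTop ℕ∞} (h : ContDiff ℝ (n + 1) (Function.uncurry F)) :
    ContDiff ℝ n (Function.uncurry (dAng F)) := by
  have e : Function.uncurry (dAng F) = fun p => fderiv ℝ (Function.uncurry F) p (0, 1) :=
    funext fun p => ((partials (h.differentiable (by simp)) p.1 p.2).2.2.2).symm
  rw [e]
  exact (h.fderiv_right le_rfl).clm_apply contDiff_const

lemma angLap_eq {F : ℝ → ℝ → ℝ} (h : ContDiff ℝ 2 (Function.uncurry F)) (r θ : ℝ) :
    angLap F r θ = -2 * θ * dAng F r θ + (1 - θ ^ 2) * dAng (dAng F) r θ := by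
  have h1 := (partials ((contDiff_dAng (n := 1) h).differentiable one_ne_zero) r θ).2.1
  have h2 : HasDerivAt (fun t : ℝ => 1 - t ^ 2) (-(2 * θ)) θ := by
    simpa using ((hasDerivAt_id θ).pow 2).const_sub 1
  rw [angLap]
  refine (h2.fun_mul h1).deriv.trans ?_
  ring

lemma hasFDerivAt_height (x : Space) :
    HasFDerivAt height (EuclideanSpace.proj (2 : Fin 3) : Space →L[ℝ] ℝ) x :=
  (EuclideanSpace.proj (2 : Fin 3) : Space →L[ℝ] ℝ).hasFDerivAt

/-- The chain rule in the meridian coordinates. -/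
lemma hasFDerivAt_polar {F : ℝ → ℝ → ℝ} (h : Differentiable ℝ (Function.uncurry F)) {x : Space}
    (hx : x ≠ 0) :
    HasFDerivAt (fun y => F ‖y‖ (height y / ‖y‖))
      (dRad F ‖x‖ (height x / ‖x‖) • ‖x‖⁻¹ • innerSL ℝ x +
        dAng F ‖x‖ (height x / ‖x‖) • (height x • (-(‖x‖ ^ 2)⁻¹) • ‖x‖⁻¹ • innerSL ℝ x +
          ‖x‖⁻¹ • (EuclideanSpace.proj (2 : Fin 3) : Space →L[ℝ] ℝ))) x := by
  have hr : 0 < ‖x‖ := norm_pos_iff.2 hx
  have hn : HasFDerivAt (fun y : Space => ‖y‖) (‖x‖⁻¹ • innerSL ℝ x) x := by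
    have h := ((hasFDerivAt_id x).norm_sq).sqrt (by positivity)
    have he : (fun y : Space => ‖y‖) = fun y : Space => Real.sqrt (‖id y‖ ^ 2) := by
      funext y; simp
    rw [he]
    refine h.congr_fderiv ?_
    ext v
    simp [Real.sqrt_sq hr.le]
    field_simp
  have hi : HasFDerivAt (fun y : Space => ‖y‖⁻¹) ((-(‖x‖ ^ 2)⁻¹) • (‖x‖⁻¹ • innerSL ℝ x)) x :=
    (hasDerivAt_inv hr.ne').comp_hasFDerivAt x hn
  have hq : HasFDerivAt (fun y : Space => height y / ‖y‖)
      (height x • ((-(‖x‖ ^ 2)⁻¹) • ‖x‖⁻¹ • innerSL ℝ x) +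
        ‖x‖⁻¹ • (EuclideanSpace.proj (2 : Fin 3) : Space →L[ℝ] ℝ)) x := by
    simpa only [div_eq_mul_inv] using (hasFDerivAt_height x).fun_mul hi
  have hc := (h (‖x‖, height x / ‖x‖)).hasFDerivAt.comp x (hn.prodMk hq)
  refine HasFDerivAt.congr_fderiv (f := fun y => F ‖y‖ (height y / ‖y‖)) hc ?_
  ext v
  obtain ⟨-, -, e1, e2⟩ := partials h ‖x‖ (height x / ‖x‖)
  simp only [ContinuousLinearMap.comp_apply, ContinuousLinearMap.prod_apply]
  generalize hA : (‖x‖⁻¹ • innerSL ℝ x) v = A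
  generalize hB : (height x • ((-(‖x‖ ^ 2)⁻¹) • ‖x‖⁻¹ • innerSL ℝ x) +
        ‖x‖⁻¹ • (EuclideanSpace.proj (2 : Fin 3) : Space →L[ℝ] ℝ)) v = B
  rw [show (A, B) = A • (1, 0) + B • (0, 1) by simp, map_add, map_smul, map_smul, e1, e2, ← hA, ← hB]
  simp [mul_comm]
  ring

lemma deriv3_polar {F : ℝ → ℝ → ℝ} (h : Differentiable ℝ (Function.uncurry F)) {x : Space}
    (hx : x ≠ 0) (a : Fin 3) :
    deriv3 a (fun y => F ‖y‖ (height y / ‖y‖)) x =
      dRad F ‖x‖ (height x / ‖x‖) * (x a * ‖x‖⁻¹) + dAng F ‖x‖ (height x / ‖x‖) *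
        ((unit3 2) a * ‖x‖⁻¹ - height x * x a * ‖x‖⁻¹ ^ 3) := by
  rw [deriv3, (hasFDerivAt_polar h hx).fderiv]
  simp [unit3, EuclideanSpace.inner_single_right]
  fin_cases a <;> simp <;> ring

/-- The Laplacian of a function of `(r, θ)`. -/
theorem lap_polar {F : ℝ → ℝ → ℝ} (h : ContDiff ℝ 2 (Function.uncurry F)) {x : Space}
    (hx : x ≠ 0) :
    lap (fun y => F ‖y‖ (height y / ‖y‖)) x = polLap F ‖x‖ (height x / ‖x‖) := by
  have hr : 0 < ‖x‖ := norm_pos_iff.2 hx
  have hF := h.differentiable two_ne_zero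
  have hR := (contDiff_dRad (n := 1) h).differentiable one_ne_zero
  have hA := (contDiff_dAng (n := 1) h).differentiable one_ne_zero
  have hn : HasFDerivAt (fun y : Space => ‖y‖) (‖x‖⁻¹ • innerSL ℝ x) x := by
    have h := ((hasFDerivAt_id x).norm_sq).sqrt (by positivity)
    have he : (fun y : Space => ‖y‖) = fun y : Space => Real.sqrt (‖id y‖ ^ 2) := by
      funext y; simp
    rw [he]
    refine h.congr_fderiv ?_
    ext v
    simp [Real.sqrt_sq hr.le]
    field_simp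
  have hi : HasFDerivAt (fun y : Space => ‖y‖⁻¹) ((-(‖x‖ ^ 2)⁻¹) • (‖x‖⁻¹ • innerSL ℝ x)) x :=
    (hasDerivAt_inv hr.ne').comp_hasFDerivAt x hn
  set R₀ := dRad F ‖x‖ (height x / ‖x‖) with hR₀
  set A₀ := dAng F ‖x‖ (height x / ‖x‖) with hA₀
  set d : (ℝ → ℝ → ℝ) → Fin 3 → ℝ := fun G a =>
    dRad G ‖x‖ (height x / ‖x‖) * (x a * ‖x‖⁻¹) + dAng G ‖x‖ (height x / ‖x‖) *
        ((unit3 2) a * ‖x‖⁻¹ - height x * x a * ‖x‖⁻¹ ^ 3) with hd
  have hdd : ∀ a : Fin 3, deriv3 a (deriv3 a fun y => F ‖y‖ (height y / ‖y‖)) x =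
      d (dRad F) a * (x a * ‖x‖⁻¹) + R₀ * (‖x‖⁻¹ - x a ^ 2 * ‖x‖⁻¹ ^ 3) +
        d (dAng F) a * ((unit3 2) a * ‖x‖⁻¹ - height x * x a * ‖x‖⁻¹ ^ 3) +
        A₀ * (-2 * (unit3 2) a * x a * ‖x‖⁻¹ ^ 3 - height x * ‖x‖⁻¹ ^ 3 +
          3 * height x * x a ^ 2 * ‖x‖⁻¹ ^ 5) := by
    intro a
    have he : deriv3 a (fun y => F ‖y‖ (height y / ‖y‖)) =ᶠ[𝓝 x] fun y =>
        dRad F ‖y‖ (height y / ‖y‖) * (y a * ‖y‖⁻¹) + dAng F ‖y‖ (height y / ‖y‖) *
        ((unit3 2) a * ‖y‖⁻¹ - height y * y a * ‖y‖⁻¹ ^ 3) := by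
      filter_upwards [eventually_ne_nhds hx] with y hy
      exact deriv3_polar hF hy a
    have ha : HasFDerivAt (fun y : Space => y a)
        (EuclideanSpace.proj a : Space →L[ℝ] ℝ) x :=
      (EuclideanSpace.proj a : Space →L[ℝ] ℝ).hasFDerivAt
    have h1 := (hasFDerivAt_polar hR hx).fun_mul (ha.fun_mul hi)
    have h2 := (hasFDerivAt_polar hA hx).fun_mul
      ((hi.const_mul ((unit3 2) a)).fun_sub
        (((hasFDerivAt_height x).fun_mul ha).fun_mul ((hasDerivAt_pow 3 _).comp_hasFDerivAt x hi)))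
    simp only [Function.comp_def] at h2
    rw [show deriv3 a (deriv3 a fun y => F ‖y‖ (height y / ‖y‖)) x =
      fderiv ℝ (deriv3 a fun y => F ‖y‖ (height y / ‖y‖)) x (unit3 a) from rfl, he.fderiv_eq,
      (h1.fun_add h2).fderiv]
    simp only [hd, hR₀, hA₀]
    simp [unit3, EuclideanSpace.inner_single_right]
    fin_cases a <;> simp [height, EuclideanSpace.inner_single_right] <;> ring
  simp only [lap, hdd, hd, Fin.sum_univ_three, polLap, angLap_eq h]
  simp only [unit3, height, PiLp.single_apply, Fin.reduceEq, if_false, if_true, hR₀, hA₀]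
  have hs : ‖x‖ ^ 2 = x 0 ^ 2 + x 1 ^ 2 + x 2 ^ 2 := norm_sq_eq x
  generalize dRad (dRad F) ‖x‖ (x 2 / ‖x‖) = P
  generalize dAng (dRad F) ‖x‖ (x 2 / ‖x‖) = Q
  generalize dRad (dAng F) ‖x‖ (x 2 / ‖x‖) = Q'
  generalize dAng (dAng F) ‖x‖ (x 2 / ‖x‖) = T
  generalize dRad F ‖x‖ (x 2 / ‖x‖) = R₁
  generalize dAng F ‖x‖ (x 2 / ‖x‖) = A₁
  field_simp
  linear_combination (-(P * ‖x‖ ^ 4) + R₁ * ‖x‖ ^ 3 + (Q + Q') * x 2 * ‖x‖ ^ 2
    - T * x 2 ^ 2 - 3 * A₁ * x 2 * ‖x‖) * hs

/-- A function of `(r, θ)` with support away from `r = 0` as a test on space. -/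
lemma polar_test {F : ℝ → ℝ → ℝ} {R : ℝ} (hR : 0 ≤ R) (h : ContDiff ℝ 2 (Function.uncurry F))
    (hc : HasCompactSupport (Function.uncurry F))
    (hs : tsupport (Function.uncurry F) ⊆ {p | R < p.1 ∧ 2 * |p.2| < 1}) :
    ContDiff ℝ 2 (fun y : Space => F ‖y‖ (height y / ‖y‖)) ∧
      HasCompactSupport (fun y : Space => F ‖y‖ (height y / ‖y‖)) ∧
      tsupport (fun y : Space => F ‖y‖ (height y / ‖y‖)) ⊆ belt R := by
  set K := tsupport (Function.uncurry F) with hK
  have hKc : IsCompact K := hc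
  obtain ⟨M, hM⟩ := (hKc.image continuous_fst).bddAbove
  set S : Set Space := {x | R ≤ ‖x‖ ∧ x ≠ 0 ∧ polMap x ∈ K} with hS
  have hpos : ∀ p ∈ K, 0 < p.1 := fun p hp => hR.trans_lt (hs hp).1
  have hsub : S ⊆ closedBall 0 M := fun x hx => by
    rw [mem_closedBall, dist_zero_right]
    exact hM ⟨_, hx.2.2, rfl⟩
  have hclosed : IsClosed S := by
    rcases eq_empty_or_nonempty K with he | hne
    · have : S = ∅ := eq_empty_of_forall_notMem fun x hx => by simp [hS, he] at hx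
      rw [this]; exact isClosed_empty
    obtain ⟨p₀, hp₀, hmin⟩ := hKc.exists_isMinOn hne continuous_fst.continuousOn
    have e : S = {x : Space | max R p₀.1 ≤ ‖x‖} ∩ polMap ⁻¹' K := by
      ext x
      refine ⟨fun hx => ⟨max_le hx.1 (hmin hx.2.2), hx.2.2⟩, fun hx => ?_⟩
      exact ⟨(le_max_left _ _).trans hx.1,
        norm_pos_iff.1 ((hpos p₀ hp₀).trans_le ((le_max_right _ _).trans hx.1)), hx.2⟩
    rw [e]
    refine ContinuousOn.preimage_isClosed_of_isClosed ?_
      (isClosed_le continuous_const continuous_norm) hKc.isClosed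
    refine continuous_norm.continuousOn.prodMk (ContinuousOn.div ?_ continuous_norm.continuousOn
      fun x hx => ((hpos p₀ hp₀).trans_le ((le_max_right _ _).trans hx)).ne')
    exact Continuous.continuousOn (by unfold height; fun_prop)
  have hzero : ∀ y : Space, y ∉ S → F ‖y‖ (height y / ‖y‖) = 0 := fun y hy => by
    by_contra hne
    have hmem : polMap y ∈ K := subset_tsupport _ hne
    refine hy ⟨(hs hmem).1.le, norm_pos_iff.1 (hpos _ hmem), hmem⟩
  have hts : tsupport (fun y : Space => F ‖y‖ (height y / ‖y‖)) ⊆ S :=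
    closure_minimal (fun y hy => by_contra fun hn => hy (hzero y hn)) hclosed
  refine ⟨?_, ((isCompact_closedBall (0 : Space) M).of_isClosed_subset hclosed hsub).of_isClosed_subset
    (isClosed_tsupport _) hts, fun x hx => ?_⟩
  · refine contDiff_iff_contDiffAt.2 fun x => ?_
    by_cases hx : x ∈ tsupport (fun y : Space => F ‖y‖ (height y / ‖y‖))
    swap
    · exact contDiffAt_const.congr_of_eventuallyEq (notMem_tsupport_iff_eventuallyEq.1 hx)
    have hx0 : x ≠ 0 := (hts hx).2.1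
    exact h.contDiffAt.comp x ((contDiffAt_norm ℝ hx0).prodMk
      (((EuclideanSpace.proj (2 : Fin 3) : Space →L[ℝ] ℝ).contDiff.contDiffAt).div
        (contDiffAt_norm ℝ hx0) (norm_ne_zero_iff.2 hx0)))
  · obtain ⟨-, hx0, hm⟩ := hts hx
    have h2 := hs hm
    have hr : 0 < ‖x‖ := norm_pos_iff.2 hx0
    refine ⟨h2.1, ?_⟩
    have h3 : 2 * (|height x| / ‖x‖) < 1 := by simpa [polMap, abs_div, abs_norm] using h2.2
    rw [mul_div, div_lt_one hr] at h3
    exact h3

/-- Weak equations hold against `C²` tests. -/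
theorem test_two {U : Set Space} (hU : IsOpen U) {f h η : Space → ℝ} (hw : WeakPoisson U f h)
    (hη : ContDiff ℝ 2 η) (hc : HasCompactSupport η) (hs : tsupport η ⊆ U) :
    ∫ x, f x * lap η x = ∫ x, h x * η x := by
  obtain ⟨δ, hδ, hsub⟩ := hc.isCompact.exists_cthickening_subset_open hU hs
  set K := cthickening δ (tsupport η) with hKdef
  have hK : IsCompact K := hc.isCompact.cthickening
  have hηK : tsupport η ⊆ K := self_subset_cthickening _
  have hlc : HasCompactSupport (lap η) := hasCompactSupport_lap hc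
  have hlK : tsupport (lap η) ⊆ K := (tsupport_lap η).trans hηK
  refine eq_of_forall_dist_le fun e he => ?_
  set C := (∫ x in K, |f x|) + ∫ x in K, |h x| with hC
  have hC0 : 0 ≤ C := by positivity
  obtain ⟨r₁, hr₁, h1⟩ := Metric.uniformContinuous_iff.1
    (hc.uniformContinuous_of_continuous hη.continuous) (e / (C + 1)) (by positivity)
  obtain ⟨r₂, hr₂, h2⟩ := Metric.uniformContinuous_iff.1
    (hlc.uniformContinuous_of_continuous (continuous_lap hη)) (e / (C + 1)) (by positivity)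
  set R := min δ (min r₁ r₂) with hRdef
  have hR : 0 < R := lt_min hδ (lt_min hr₁ hr₂)
  set ρ := molFun R hR with hρdef
  have hρc : Continuous ρ := (molFun_smooth hR).continuous
  have hρl : LocallyIntegrable ρ := hρc.locallyIntegrable
  set ψ := conv3 η ρ with hψ
  have hts : tsupport ψ ⊆ K := by
    refine closure_minimal (fun x hx => ?_) isClosed_cthickening
    obtain ⟨y, hy⟩ : ∃ y, ρ y * η (x - y) ≠ 0 := by
      by_contra hn
      push Not at hn
      exact hx (by simp [hψ, conv3, hn])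
    refine mem_cthickening_of_dist_le _ (x - y) δ _
      (subset_tsupport η (right_ne_zero_of_mul hy)) ?_
    have h3 := molFun_tsupport hR (subset_tsupport ρ (left_ne_zero_of_mul hy))
    rw [mem_closedBall, dist_zero_right] at h3
    rw [dist_eq_norm, sub_sub_cancel]
    exact h3.trans (min_le_left _ _)
  have hbump : IsBump U ψ := by
    refine ⟨?_, hK.of_isClosed_subset (isClosed_tsupport _) hts, hts.trans hsub⟩
    rw [hψ, conv3_eq]
    exact (mol R hR).hasCompactSupport_normed.contDiff_convolution_left _ (molFun_smooth hR)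
      hη.continuous.locallyIntegrable
  have hlap : lap ψ = conv3 (lap η) ρ := funext fun x => lap_conv3 hη hc hρl x
  have close : ∀ {G : Space → ℝ}, Continuous G → HasCompactSupport G → ∀ r : ℝ, R ≤ r →
      (∀ {a b : Space}, dist a b < r → dist (G a) (G b) < e / (C + 1)) →
      ∀ x, |conv3 G ρ x - G x| ≤ e / (C + 1) := by
    intro G hG hGc r hr hGu x
    rw [conv3_eq, ← Real.dist_eq]
    refine (mol R hR).dist_normed_convolution_le hG.aestronglyMeasurable fun y hy => ?_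
    exact (hGu ((mem_ball.1 hy).trans_le hr)).le
  have c1 := close hη.continuous hc r₁ ((min_le_right _ _).trans (min_le_left _ _)) fun hab => h1 hab
  have c2 := close (continuous_lap hη) hlc r₂ ((min_le_right _ _).trans (min_le_right _ _)) fun hab => h2 hab
  have i1 : |(∫ x, f x * lap ψ x) - ∫ x, f x * lap η x| ≤ e / (C + 1) * ∫ x in K, |f x| :=
    abs_integral_mul_sub_le hw.1 hK hsub hbump.lap_continuous (continuous_lap hη)
      ((tsupport_lap ψ).trans hts) hlK fun x => by rw [hlap]; exact c2 x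
  have i2 : |(∫ x, h x * ψ x) - ∫ x, h x * η x| ≤ e / (C + 1) * ∫ x in K, |h x| :=
    abs_integral_mul_sub_le hw.2.1 hK hsub hbump.smooth.continuous hη.continuous hts hηK c1
  have e0 := hw.2.2 ψ hbump
  calc dist (∫ x, f x * lap η x) (∫ x, h x * η x)
      = |((∫ x, h x * ψ x) - ∫ x, h x * η x) -
          ((∫ x, f x * lap ψ x) - ∫ x, f x * lap η x)| := by rw [Real.dist_eq, e0]; ring_nf
    _ ≤ e / (C + 1) * C := by
        rw [hC, mul_add, add_comm (e / (C + 1) * ∫ x in K, |f x|)]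
        exact (abs_sub _ _).trans (add_le_add i2 i1)
    _ ≤ e := by rw [div_mul_eq_mul_div, div_le_iff₀ (by positivity)]; nlinarith

end Vale.Agent.P363.Ext
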